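import Vale.Agent.P338.H294.SSPureMain
import Vale.Agent.P338.MoveLib
import Vale.Agent.P338.Cmd

/-!
# P338, third part: the multiplication program
-/

namespace Vale.Agent.P338.SS

open Vale.Agent.P338.S2

variable {E : Type}

/-! ### Small programs -/

section

variable {ι Γ : Type} [DecidableEq ι]

/-- Move `a` to `t` (reversed) and push `c` on `u` for every symbol. -/
def cnt (a t u : ι) (c : Γ) : Prog ι Γ :=
  Prog.loop (nonempty a) ((Prog.mov a t).seq (Prog.push u c))

theorem runs_cnt {a t u : ι} (hat : a ≠ t) (hau : a ≠ u) (htu : t ≠ u) (c : Γ)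
    (s : Store ι Γ) :
    Runs (cnt a t u c) s
      (Function.update (Function.update (Function.update s a []) t ((s a).reverse ++ s t)) u
        (List.replicate (s a).length c ++ s u)) (5 * (s a).length) := by
  induction h : s a generalizing s with
  | nil =>
    refine (Runs.loopF (by simp [h])).of_eq ?_
    funext m
    simp only [Function.update_apply]
    split_ifs <;> simp_all
  | cons x l ih =>
    have h1 := (Runs.mov hat s h).seq (Runs.push u c _)
    have h2 := ih (Function.update (Function.update (Function.update s a l) t (x :: s t)) u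
      (c :: Function.update (Function.update s a l) t (x :: s t) u)) (by
      rw [Function.update_of_ne hau, Function.update_of_ne hat, Function.update_self])
    have h3 := Runs.loopT (c := nonempty a) (p := (Prog.mov a t).seq (Prog.push u c))
      (by simp [h]) h1 h2
    refine (h3.mono ?_).of_eq ?_
    · simp only [List.length_cons]; omega
    · funext m
      simp only [Function.update_apply]
      split_ifs <;> simp_all [List.replicate_succ']

/-- Push `n` copies of `c`. -/
def pushN (i : ι) (c : Γ) : ℕ → Prog ι Γ
  | 0 => Prog.skip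
  | n + 1 => (Prog.push i c).seq (pushN i c n)

theorem runs_pushN (i : ι) (c : Γ) (n : ℕ) (s : Store ι Γ) :
    Runs (pushN i c n) s (Function.update s i (List.replicate n c ++ s i)) (2 * n + 1) := by
  induction n generalizing s with
  | zero => exact (Runs.skip s).of_eq (by simp)
  | succ n ih =>
    refine (((Runs.push i c s).seq (ih _)).mono (by omega)).of_eq ?_
    funext m
    simp only [Function.update_apply]
    split_ifs <;> simp_all [List.replicate_succ']

/-- Halve the number of symbols of `a` (with the scratch stack `t`). -/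
def halve (a t : ι) : Prog ι Γ :=
  (Prog.loop (nonempty a) ((Prog.pop a).seq (Prog.mov a t))).seq (Prog.rev t a)

theorem runs_halve {a t : ι} (hat : a ≠ t) (c : Γ) (n : ℕ) (s : Store ι Γ)
    (ha : s a = List.replicate (2 * n) c) (ht : s t = []) :
    Runs (halve a t) s (Function.update s a (List.replicate n c)) (8 * n + 1) := by
  have h1 := Runs.loop_iter_le (c := nonempty a) (p := (Prog.pop a).seq (Prog.mov a t)) n
    (fun k => Function.update (Function.update s a (List.replicate (2 * (n - k)) c)) t
      (List.replicate k c)) 3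
    (by
      intro k hk
      rw [nonempty_tops, Function.update_of_ne hat, Function.update_self]
      obtain ⟨m, hm⟩ : ∃ m, 2 * (n - k) = m + 1 := ⟨2 * (n - k) - 1, by omega⟩
      simp [hm])
    (by
      rw [nonempty_tops, Function.update_of_ne hat, Function.update_self]
      simp)
    (by
      intro k hk
      have e : 2 * (n - k) = 2 * (n - (k + 1)) + 1 + 1 := by omega
      have h2 := (Runs.pop a (Function.update (Function.update s a
        (List.replicate (2 * (n - k)) c)) t (List.replicate k c))).seq
        (Runs.mov hat _ (a := c) (l := List.replicate (2 * (n - (k + 1))) c) (by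
          rw [Function.update_self, Function.update_of_ne hat, Function.update_self, e]
          rfl))
      refine (h2.mono (by omega)).of_eq ?_
      funext m
      simp only [Function.update_apply]
      split_ifs <;> simp_all [List.replicate_succ])
  have h2 := Runs.rev hat.symm (Function.update (Function.update s a
    (List.replicate (2 * (n - n)) c)) t (List.replicate n c))
  have e0 : Function.update (Function.update s a (List.replicate (2 * (n - 0)) c)) t
      (List.replicate 0 c) = s := by
    funext m
    simp only [Function.update_apply]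
    split_ifs <;> simp_all
  have h3 := h1.seq h2
  rw [e0] at h3
  refine (h3.mono ?_).of_eq ?_
  · simp; omega
  · funext m
    simp only [Function.update_apply]
    split_ifs <;> simp_all

end

/-! ### The stores of the main program -/

/-- The contents of the stacks that are used by the main program. -/
structure MS (E : Type) : Type where
  ax : List (SSym E) := []
  ay : List (SSym E) := []
  az : List (SSym E) := []
  x : List (SSym E) := []
  y : List (SSym E) := []
  hb : List (SSym E) := []
  ww : List (SSym E) := []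
  uu : List (SSym E) := []
  fr : List (SSym E) := []
  mm : List (SSym E) := []
  v : List (SSym E) := []
  p : List (SSym E) := []
  t1 : List (SSym E) := []

/-- The store. -/
def MS.st (σ : MS E) : SQ E
  | .AX => σ.ax
  | .AY => σ.ay
  | .AZ => σ.az
  | .X => σ.x
  | .Y => σ.y
  | .HB => σ.hb
  | .WW => σ.ww
  | .UU => σ.uu
  | .FR => σ.fr
  | .MM => σ.mm
  | .V => σ.v
  | .P => σ.p
  | .T1 => σ.t1
  | _ => []

theorem MS.clean (σ : MS E) (h1 : σ.v = []) (h2 : σ.p = []) (h3 : σ.t1 = []) :
    Clean σ.st := by
  intro r hr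
  simp only [sc, List.mem_cons, List.not_mem_nil, or_false] at hr
  rcases hr with rfl | rfl | rfl | rfl | rfl | rfl | rfl | rfl | rfl | rfl | rfl | rfl | rfl |
    rfl | rfl | rfl | rfl | rfl <;> first | rfl | assumption

/-! ### Setup -/

/-- Set `MM`, `UU` and `WW`. -/
def setupA : PQ E :=
  ((cnt Q.AX Q.T1 Q.MM mk).seq (Prog.rev Q.T1 Q.AX)).seq
    ((pushN Q.WW mk 32).seq ((Prog.copyOnto Q.MM Q.V Q.T1).seq
      ((dropN Q.WW Q.V Q.T1).seq
        (Prog.loop (nonempty Q.V) ((dropN Q.WW Q.V Q.T1).seq
          ((Prog.copyOnto Q.WW Q.P Q.T1).seq ((Prog.rev Q.P Q.WW).seq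
            (Prog.push Q.UU mk))))))))

theorem drop_una (k n : ℕ) : (una n : List (SSym E)).drop k = una (n - k) := by
  simp [una]

theorem runs_setupA {m u : ℕ} (xs ys : List Bool) (hx : xs.length = m)
    (hu : ∀ k < u, 32 * 2 ^ k < m) (hu' : m ≤ 32 * 2 ^ u) :
    Runs (setupA : PQ E) ({ ax := bits xs, ay := bits ys } : MS E).st
      ({ ax := bits xs, ay := bits ys, mm := una m, uu := una u,
         ww := una (32 * 2 ^ u) } : MS E).st (20 * (32 * 2 ^ u) + 14 * m + 340) := by
  have h1 : Runs (cnt Q.AX Q.T1 Q.MM mk : PQ E) ({ ax := bits xs, ay := bits ys } : MS E).st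
      ({ ay := bits ys, t1 := (bits xs).reverse, mm := una m } : MS E).st (5 * m) := by
    refine ((runs_cnt (by decide) (by decide) (by decide) mk _).mono ?_).of_eq ?_
    · simp [MS.st, hx]
    · funext r; cases r <;> first | rfl | simp [MS.st, hx, una]
  have h2 : Runs (Prog.rev Q.T1 Q.AX : PQ E)
      ({ ay := bits ys, t1 := (bits xs).reverse, mm := una m } : MS E).st
      ({ ax := bits xs, ay := bits ys, mm := una m } : MS E).st (3 * m) := by
    refine ((Runs.rev (by decide) _).mono ?_).of_eq ?_
    · simp [MS.st, hx]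
    · funext r
      cases r <;> first | rfl | simp [MS.st]
  have h3 : Runs (pushN Q.WW mk 32 : PQ E)
      ({ ax := bits xs, ay := bits ys, mm := una m } : MS E).st
      ({ ax := bits xs, ay := bits ys, mm := una m, ww := una 32 } : MS E).st 65 := by
    refine ((runs_pushN _ _ _ _).mono (by norm_num)).of_eq ?_
    funext r; cases r <;> rfl
  have h4 : Runs (Prog.copyOnto Q.MM Q.V Q.T1 : PQ E)
      ({ ax := bits xs, ay := bits ys, mm := una m, ww := una 32 } : MS E).st
      ({ ax := bits xs, ay := bits ys, mm := una m, ww := una 32, v := una m } : MS E).st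
      (6 * m + 1) := by
    refine ((Runs.copyOnto (by decide) (by decide) (by decide) _ rfl).mono ?_).of_eq ?_
    · simp [MS.st]
    · funext r
      cases r <;> first | rfl | simp [MS.st]
  have h5 : Runs (dropN Q.WW Q.V Q.T1 : PQ E)
      ({ ax := bits xs, ay := bits ys, mm := una m, ww := una 32, v := una m } : MS E).st
      ({ ax := bits xs, ay := bits ys, mm := una m, ww := una 32,
         v := una (m - 32) } : MS E).st 257 := by
    refine ((runs_dropN (u := Q.WW) (a := Q.V) (t := Q.T1) (by decide) (by decide) (by decide)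
      mk 32 ({ ax := bits xs, ay := bits ys, mm := una m, ww := una 32, v := una m } :
      MS E).st rfl rfl).mono ?_).of_eq ?_
    · norm_num
    · funext r; cases r <;> first | rfl | simp [MS.st, drop_una]
  have h6 : Runs (Prog.loop (nonempty Q.V) ((dropN Q.WW Q.V Q.T1).seq
          ((Prog.copyOnto Q.WW Q.P Q.T1).seq ((Prog.rev Q.P Q.WW).seq
            (Prog.push Q.UU mk)))) : PQ E)
      ({ ax := bits xs, ay := bits ys, mm := una m, ww := una 32,
         v := una (m - 32) } : MS E).st
      ({ ax := bits xs, ay := bits ys, mm := una m, uu := una u,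
         ww := una (32 * 2 ^ u) } : MS E).st (20 * (32 * 2 ^ u)) := by
    have h := Runs.loop_iter (c := nonempty Q.V) (p := ((dropN Q.WW Q.V Q.T1).seq
          ((Prog.copyOnto Q.WW Q.P Q.T1).seq ((Prog.rev Q.P Q.WW).seq
            (Prog.push Q.UU mk))) : PQ E)) u
      (fun k => ({
        ax := bits xs, ay := bits ys, mm := una m, ww := una (32 * 2 ^ k),
        v := una (m - 32 * 2 ^ k), uu := una k } : MS E).st)
      (fun k => 17 * (32 * 2 ^ k) + 6)
      (by
        intro k hk
        have := hu k hk
        obtain ⟨j, hj⟩ : ∃ j, m - 32 * 2 ^ k = j + 1 := ⟨m - 32 * 2 ^ k - 1, by omega⟩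
        rw [nonempty_tops]
        simp [MS.st, hj, una, List.replicate_succ])
      (by
        rw [nonempty_tops]
        simp [MS.st, Nat.sub_eq_zero_of_le hu', una])
      (by
        intro k hk
        have g1 : Runs (dropN Q.WW Q.V Q.T1 : PQ E)
            ({ ax := bits xs, ay := bits ys, mm := una m, ww := una (32 * 2 ^ k),
               v := una (m - 32 * 2 ^ k), uu := una k } : MS E).st
            ({ ax := bits xs, ay := bits ys, mm := una m, ww := una (32 * 2 ^ k),
               v := una (m - 32 * 2 ^ (k + 1)), uu := una k } : MS E).st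
            (8 * (32 * 2 ^ k) + 1) := by
          refine (runs_dropN (u := Q.WW) (a := Q.V) (t := Q.T1) (by decide) (by decide)
            (by decide) mk (32 * 2 ^ k) (MS.st _) rfl rfl).of_eq ?_
          have e : m - 32 * 2 ^ (k + 1) = m - 32 * 2 ^ k - 32 * 2 ^ k := by
            rw [pow_succ]; omega
          funext r; cases r <;> first | rfl | simp [MS.st, drop_una, e]
        have g2 : Runs (Prog.copyOnto Q.WW Q.P Q.T1 : PQ E)
            ({ ax := bits xs, ay := bits ys, mm := una m, ww := una (32 * 2 ^ k),
               v := una (m - 32 * 2 ^ (k + 1)), uu := una k } : MS E).st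
            ({ ax := bits xs, ay := bits ys, mm := una m, ww := una (32 * 2 ^ k),
               v := una (m - 32 * 2 ^ (k + 1)), uu := una k,
               p := una (32 * 2 ^ k) } : MS E).st
            (6 * (32 * 2 ^ k) + 1) := by
          refine ((Runs.copyOnto (by decide) (by decide) (by decide) _ rfl).mono ?_).of_eq ?_
          · simp [MS.st]
          · funext r
            cases r <;> first | rfl | simp [MS.st]
        have g3 : Runs (Prog.rev Q.P Q.WW : PQ E)
            ({ ax := bits xs, ay := bits ys, mm := una m, ww := una (32 * 2 ^ k),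
               v := una (m - 32 * 2 ^ (k + 1)), uu := una k,
               p := una (32 * 2 ^ k) } : MS E).st
            ({ ax := bits xs, ay := bits ys, mm := una m, ww := una (32 * 2 ^ (k + 1)),
               v := una (m - 32 * 2 ^ (k + 1)), uu := una k } : MS E).st
            (3 * (32 * 2 ^ k)) := by
          refine ((Runs.rev (by decide) _).mono ?_).of_eq ?_
          · simp [MS.st]
          · have e : 32 * 2 ^ (k + 1) = 32 * 2 ^ k + 32 * 2 ^ k := by
              rw [pow_succ]; omega
            funext r; cases r <;> first | rfl | simp [MS.st, e, una]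
        have g4 : Runs (Prog.push Q.UU mk : PQ E)
            ({ ax := bits xs, ay := bits ys, mm := una m, ww := una (32 * 2 ^ (k + 1)),
               v := una (m - 32 * 2 ^ (k + 1)), uu := una k } : MS E).st
            ({ ax := bits xs, ay := bits ys, mm := una m, ww := una (32 * 2 ^ (k + 1)),
               v := una (m - 32 * 2 ^ (k + 1)), uu := una (k + 1) } : MS E).st 1 :=
          (Runs.push _ _ _).of_eq (by funext r; cases r <;> first | rfl | simp [MS.st])
        exact (g1.seq (g2.seq (g3.seq g4))).mono (by omega))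
    refine (h.mono ?_).of_eq ?_
    · have key : ∀ n : ℕ, ∑ k ∈ Finset.range n, (17 * (32 * 2 ^ k) + 6 + 2) ≤
          20 * (32 * 2 ^ n) := by
        intro n
        induction n with
        | zero => simp
        | succ n ih =>
          rw [Finset.sum_range_succ, pow_succ]
          have : 1 ≤ 2 ^ n := Nat.one_le_two_pow
          omega
      exact key u
    · have e : m - 32 * 2 ^ u = 0 := Nat.sub_eq_zero_of_le hu'
      funext r; cases r <;> first | rfl | simp [MS.st, e, una]
  exact ((h1.seq h2).seq (h3.seq (h4.seq (h5.seq h6)))).mono (by omega)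

/-- Put the padded operands on `X`. -/
def setupB : PQ E :=
  ((Prog.copyOnto Q.WW Q.V Q.T1).seq ((dropN Q.MM Q.V Q.T1).seq ((Prog.clear Q.WW).seq
    (Prog.fill Q.V (sb false) Q.X Q.T1)))).seq
    ((mvOnto Q.AY Q.X Q.T1).seq ((Prog.fill Q.V (sb false) Q.X Q.T1).seq
      ((mvOnto Q.AX Q.X Q.T1).seq ((Prog.clear Q.V).seq
        ((Prog.push Q.HB mk).seq (Prog.push Q.HB mk))))))

/-- The first data. -/
theorem arr_first {m S : ℕ} {xs ys : List Bool} (hx : xs.length = m) (hy : ys.length = m)
    (hS : m ≤ S) :
    (bits xs ++ (List.replicate (S - m) (sb false) ++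
      (bits ys ++ List.replicate (S - m) (sb false))) : List (SSym E)) =
    bits (arr 2 1 S fun β _ => comb 1 (fun _ => natOf xs) (fun _ => natOf ys) β) := by
  have hz : ∀ zs : List Bool, zs.length = m →
      bitsOf S (natOf zs) = zs ++ List.replicate (S - m) false := by
    intro zs hz
    have : natOf zs < 2 ^ m := by rw [← hz]; exact natOf_lt zs
    conv_lhs => rw [← Nat.add_sub_cancel' hS]
    rw [bitsOf_add_zeros this, bitsOf_natOf_of hz]
  have e : arr 2 1 S (fun β _ => comb 1 (fun _ => natOf xs) (fun _ => natOf ys) β) =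
      bitsOf S (natOf xs) ++ bitsOf S (natOf ys) := by
    simp [arr, cat_succ, comb]
  rw [e, hz xs hx, hz ys hy]
  simp [bits, sb]

theorem runs_setupB {m u S : ℕ} {xs ys : List Bool} (hx : xs.length = m) (hy : ys.length = m)
    (hS : m ≤ S) :
    Runs (setupB : PQ E) ({ ax := bits xs, ay := bits ys, mm := una m, uu := una u, ww := una S } : MS E).st
      ({
        x := bits (arr 2 1 S fun β _ => comb 1 (fun _ => natOf xs) (fun _ => natOf ys) β),
        hb := una 2, mm := una m, uu := una u } : MS E).st (28 * S + 20 * m + 20) := by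
  have h1 : Runs (Prog.copyOnto Q.WW Q.V Q.T1 : PQ E)
      ({ ax := bits xs, ay := bits ys, mm := una m, uu := una u, ww := una S } : MS E).st
      ({ ax := bits xs, ay := bits ys, mm := una m, uu := una u, ww := una S, v := una S } : MS E).st
      (6 * S + 1) := by
    refine ((Runs.copyOnto (by decide) (by decide) (by decide) _ rfl).mono ?_).of_eq ?_
    · simp [MS.st]
    · funext r
      cases r <;> first | rfl | simp [MS.st]
  have h2 : Runs (dropN Q.MM Q.V Q.T1 : PQ E)
      ({ ax := bits xs, ay := bits ys, mm := una m, uu := una u, ww := una S, v := una S } : MS E).st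
      ({ ax := bits xs, ay := bits ys, mm := una m, uu := una u, ww := una S, v := una (S - m) } : MS E).st
      (8 * m + 1) := by
    refine (runs_dropN (u := Q.MM) (a := Q.V) (t := Q.T1) (by decide) (by decide)
      (by decide) mk m (MS.st _) rfl rfl).of_eq ?_
    funext r; cases r <;> first | rfl | simp [MS.st, drop_una]
  have h3 : Runs (Prog.clear Q.WW : PQ E)
      ({ ax := bits xs, ay := bits ys, mm := una m, uu := una u, ww := una S, v := una (S - m) } : MS E).st
      ({ ax := bits xs, ay := bits ys, mm := una m, uu := una u, v := una (S - m) } : MS E).st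
      (3 * S) := by
    refine ((Runs.clear _ _).mono ?_).of_eq ?_
    · simp [MS.st]
    · funext r
      cases r <;> first | rfl | simp [MS.st]
  have h4 : Runs (Prog.fill Q.V (sb false) Q.X Q.T1 : PQ E)
      ({ ax := bits xs, ay := bits ys, mm := una m, uu := una u, v := una (S - m) } : MS E).st
      ({
        ax := bits xs, ay := bits ys, mm := una m, uu := una u, v := una (S - m),
        x := List.replicate (S - m) (sb false) } : MS E).st
      (8 * S + 1) := by
    refine ((Runs.fill (u := Q.V) (b := Q.X) (t := Q.T1) (by decide) (by decide)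
      (by decide) (sb false) mk (MS.st _) (S - m) rfl rfl).mono (by omega)).of_eq ?_
    funext r
    cases r <;> first | rfl | simp [MS.st]
  have h5 : Runs (mvOnto Q.AY Q.X Q.T1 : PQ E)
      ({
        ax := bits xs, ay := bits ys, mm := una m, uu := una u, v := una (S - m),
        x := List.replicate (S - m) (sb false) } : MS E).st
      ({
        ax := bits xs, mm := una m, uu := una u, v := una (S - m),
        x := bits ys ++ List.replicate (S - m) (sb false) } : MS E).st
      (6 * m + 1) := by
    refine ((runs_mvOnto (a := Q.AY) (b := Q.X) (t := Q.T1) (by decide) (by decide)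
      (by decide) (MS.st _) rfl).mono ?_).of_eq ?_
    · simp [MS.st, hy]
    · funext r
      cases r <;> first | rfl | simp [MS.st]
  have h6 : Runs (Prog.fill Q.V (sb false) Q.X Q.T1 : PQ E)
      ({
        ax := bits xs, mm := una m, uu := una u, v := una (S - m),
        x := bits ys ++ List.replicate (S - m) (sb false) } : MS E).st
      ({
        ax := bits xs, mm := una m, uu := una u, v := una (S - m),
        x := List.replicate (S - m) (sb false) ++ (bits ys ++
          List.replicate (S - m) (sb false)) } : MS E).st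
      (8 * S + 1) := by
    refine ((Runs.fill (u := Q.V) (b := Q.X) (t := Q.T1) (by decide) (by decide)
      (by decide) (sb false) mk (MS.st _) (S - m) rfl rfl).mono (by omega)).of_eq ?_
    funext r
    cases r <;> first | rfl | simp [MS.st]
  have h7 : Runs (mvOnto Q.AX Q.X Q.T1 : PQ E)
      ({
        ax := bits xs, mm := una m, uu := una u, v := una (S - m),
        x := List.replicate (S - m) (sb false) ++ (bits ys ++
          List.replicate (S - m) (sb false)) } : MS E).st
      ({
        mm := una m, uu := una u, v := una (S - m),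
        x := bits xs ++ (List.replicate (S - m) (sb false) ++ (bits ys ++
          List.replicate (S - m) (sb false))) } : MS E).st
      (6 * m + 1) := by
    refine ((runs_mvOnto (a := Q.AX) (b := Q.X) (t := Q.T1) (by decide) (by decide)
      (by decide) (MS.st _) rfl).mono ?_).of_eq ?_
    · simp [MS.st, hx]
    · funext r
      cases r <;> first | rfl | simp [MS.st]
  rw [arr_first hx hy hS] at h7
  generalize bits (arr 2 1 S fun β _ => comb 1 (fun _ => natOf xs) (fun _ => natOf ys) β)
    = X at h7 ⊢
  have h8 : Runs (Prog.clear Q.V : PQ E)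
      ({ mm := una m, uu := una u, v := una (S - m), x := X } : MS E).st
      ({ mm := una m, uu := una u, x := X } : MS E).st
      (3 * S) := by
    refine ((Runs.clear _ _).mono ?_).of_eq ?_
    · simp [MS.st]
    · funext r
      cases r <;> first | rfl | simp [MS.st]
  have h9 : Runs (Prog.push Q.HB mk : PQ E)
      ({ mm := una m, uu := una u, x := X } : MS E).st
      ({ mm := una m, uu := una u, x := X, hb := una 1 } : MS E).st 1 :=
    (Runs.push _ _ _).of_eq (by funext r; cases r <;> first | rfl | simp [MS.st])
  have h10 : Runs (Prog.push Q.HB mk : PQ E)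
      ({ mm := una m, uu := una u, x := X, hb := una 1 } : MS E).st
      ({ mm := una m, uu := una u, x := X, hb := una 2 } : MS E).st 1 :=
    (Runs.push _ _ _).of_eq (by funext r; cases r <;> first | rfl | simp [MS.st])
  exact ((h1.seq (h2.seq (h3.seq h4))).seq (h5.seq (h6.seq (h7.seq (h8.seq
    (h9.seq h10)))))).mono (by omega)

/-! ### The transforms -/

theorem runs_down {down : PQ E} {C : ℕ} (hd : DownSpec down C) {u : ℕ} {z : ℕ → ℕ}
    (hz : ∀ β, z β < 2 ^ (32 * 2 ^ u)) (mm : List (SSym E)) :
    Runs (Prog.loop (nonempty Q.UU) down)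
      ({ x := bits (arr 2 1 (32 * 2 ^ u) fun β _ => z β), hb := una 2, mm := mm, uu := una u } : MS E).st
      ({
        x := bits (arr (2 * lh u (Nat.size u)) 1 32 fun β _ => lx u z (Nat.size u) β),
        hb := una (2 * lh u (Nat.size u)), mm := mm, fr := lfr u (Nat.size u) } : MS E).st
      ((32 * C + 2) * (32 * 2 ^ u) * (u + 1) ^ 4) := by
  have h := Runs.loop_iter (c := nonempty Q.UU) (p := down) (Nat.size u)
    (fun l => ({
      x := bits (arr (2 * lh u l) 1 (32 * 2 ^ lu u l) fun β _ => lx u z l β),
      hb := una (2 * lh u l), mm := mm, uu := una (lu u l), fr := lfr u l } : MS E).st)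
    (fun l => C * (2 * lh u l * (32 * 2 ^ lu u l) * lpk (lu u l)))
    (by
      intro l hl
      have := lu_pos hl
      obtain ⟨j, hj⟩ : ∃ j, lu u l = j + 1 := ⟨lu u l - 1, by omega⟩
      rw [nonempty_tops]
      simp [MS.st, hj, una, List.replicate_succ])
    (by
      rw [nonempty_tops]
      simp [MS.st, lu_size, una])
    (by
      intro l hl
      refine (hd (lu u l) (2 * lh u l) (lx u z l) (lfr u l) (MS.st _)
        (MS.clean _ rfl rfl rfl) ?_ (lu_pos hl) (by have := lh_pos u l; omega)
        (fun β => lx_lt hz l β) rfl rfl rfl rfl).of_eq ?_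
      · intro r hr
        simp only [par, List.mem_cons, List.not_mem_nil, or_false] at hr
        rcases hr with rfl | rfl | rfl | rfl | rfl | rfl <;> rfl
      · rw [mul_assoc 2 (lh u l)]
        funext r
        cases r <;> first | rfl | simp [MS.st])
  refine (h.mono ?_).of_eq ?_
  · have h1 := sum_levels u
    have h2 : ∑ k ∈ Finset.range (Nat.size u),
        (C * (2 * lh u k * (32 * 2 ^ lu u k) * lpk (lu u k)) + 2) =
        2 * C * (∑ l ∈ Finset.range (Nat.size u), lh u l * (32 * 2 ^ lu u l) * lpk (lu u l)) +
          2 * Nat.size u := by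
      rw [Finset.sum_add_distrib, Finset.mul_sum]
      simp only [Finset.sum_const, Finset.card_range, smul_eq_mul]
      congr 1
      · exact Finset.sum_congr rfl fun l _ => by ring
      · ring
    have h3 : Nat.size u ≤ (32 * 2 ^ u) * (u + 1) ^ 4 := by
      have h4 : Nat.size u ≤ u := Nat.size_le.2 u.lt_two_pow_self
      have h5 : u < 2 ^ u := u.lt_two_pow_self
      have h6 : 1 ≤ (u + 1) ^ 4 := Nat.one_le_pow _ _ (by omega)
      calc Nat.size u ≤ 32 * 2 ^ u * 1 := by omega
        _ ≤ _ := Nat.mul_le_mul_left _ h6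
    rw [h2]
    calc _ ≤ 2 * C * (16 * (32 * 2 ^ u) * (u + 1) ^ 4) + 2 * ((32 * 2 ^ u) * (u + 1) ^ 4) := by
          gcongr
      _ = _ := by ring
  · simp only [lu_size, pow_zero, mul_one]
    rfl

/-! ### The products of the transforms -/

/-- Separate the transforms of the two operands. -/
def splitXY : PQ E :=
  ((halve Q.HB Q.V).seq ((pushN Q.WW mk 32).seq (Prog.repOnto Q.HB Q.WW Q.V Q.T1 Q.P))).seq
    ((takeN Q.V Q.X Q.Y Q.T1).seq ((Prog.clear Q.V).seq ((Prog.rev Q.X Q.T1).seq
      ((Prog.rev Q.Y Q.X).seq (Prog.rev Q.T1 Q.Y)))))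

theorem arr_comb (H W : ℕ) (a b : ℕ → ℕ) :
    (bits (arr (2 * H) 1 W fun β _ => comb H a b β) : List (SSym E)) =
      bits (arr H 1 W fun β _ => a β) ++ bits (arr H 1 W fun β _ => b β) := by
  rw [bits, bits, bits, ← List.map_append]
  congr 1
  unfold arr
  rw [two_mul, cat_add]
  congr 1
  · exact cat_congr fun β hβ => by simp [comb, hβ]
  · exact cat_congr fun β hβ => by simp [comb]

theorem length_arr (h n W : ℕ) (F : ℕ → ℕ → ℕ) : (arr h n W F).length = h * (n * W) := by
  unfold arr
  exact length_cat_of fun β _ => length_cat_of fun i _ => by simp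

theorem runs_splitXY {H : ℕ} (a b : ℕ → ℕ) (mm fr : List (SSym E)) :
    Runs (splitXY : PQ E)
      ({
        x := bits (arr (2 * H) 1 32 fun β _ => comb H a b β), hb := una (2 * H), mm := mm,
        fr := fr } : MS E).st
      ({
        x := bits (arr H 1 32 fun β _ => a β), y := bits (arr H 1 32 fun β _ => b β),
        hb := una H, ww := una 32, mm := mm, fr := fr } : MS E).st
      (1000 * H + 100) := by
  rw [arr_comb]
  have la : (bits (arr H 1 32 fun β _ => a β) : List (SSym E)).length = 32 * H := by
    rw [length_bits, length_arr]; ring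
  have lb : (bits (arr H 1 32 fun β _ => b β) : List (SSym E)).length = 32 * H := by
    rw [length_bits, length_arr]; ring
  generalize (bits (arr H 1 32 fun β _ => a β) : List (SSym E)) = A at *
  generalize (bits (arr H 1 32 fun β _ => b β) : List (SSym E)) = B at *
  have h1 : Runs (halve Q.HB Q.V : PQ E)
      ({ x := A ++ B, hb := una (2 * H), mm := mm, fr := fr } : MS E).st
      ({ x := A ++ B, hb := una H, mm := mm, fr := fr } : MS E).st (8 * H + 1) := by
    refine (runs_halve (a := Q.HB) (t := Q.V) (by decide) mk H (MS.st _) rfl rfl).of_eq ?_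
    funext r
    cases r <;> first | rfl | simp [MS.st]
  have h2 : Runs (pushN Q.WW mk 32 : PQ E)
      ({ x := A ++ B, hb := una H, mm := mm, fr := fr } : MS E).st
      ({ x := A ++ B, hb := una H, mm := mm, fr := fr, ww := una 32 } : MS E).st 65 :=
    ((runs_pushN _ _ _ _).mono (by norm_num)).of_eq
      (by funext r; cases r <;> first | rfl | simp [MS.st])
  have h3 : Runs (Prog.repOnto Q.HB Q.WW Q.V Q.T1 Q.P : PQ E)
      ({ x := A ++ B, hb := una H, mm := mm, fr := fr, ww := una 32 } : MS E).st
      ({ x := A ++ B, hb := una H, mm := mm, fr := fr, ww := una 32, v := una (H * 32) } : MS E).st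
      (200 * H + 1) := by
    refine ((Runs.repOnto (u := Q.HB) (a := Q.WW) (b := Q.V) (t := Q.T1) (t' := Q.P)
      (by decide) (by decide) (by decide) (by decide) (by decide) (by decide) (by decide)
      (by decide) (by decide) (by decide) mk (MS.st _) H rfl rfl rfl).mono ?_).of_eq ?_
    · simp only [MS.st, length_una]; omega
    · funext r; cases r <;> first | rfl | simp [MS.st]
  have h4 : Runs (takeN Q.V Q.X Q.Y Q.T1 : PQ E)
      ({ x := A ++ B, hb := una H, mm := mm, fr := fr, ww := una 32, v := una (H * 32) } : MS E).st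
      ({ x := B, y := A.reverse, hb := una H, mm := mm, fr := fr, ww := una 32, v := una (H * 32) } : MS E).st
      (8 * (32 * H) + 1) := by
    refine ((runs_takeN (u := Q.V) (a := Q.X) (b := Q.Y) (t := Q.T1)
      (by decide) (by decide) (by decide) (by decide) (by decide) (by decide) mk A B
      (MS.st _) ?_ rfl rfl).mono ?_).of_eq ?_
    · simp only [MS.st, la, una]; rw [mul_comm]
    · rw [la]
    · funext r
      cases r <;> first | rfl | simp [MS.st]
  have h5 : Runs (Prog.clear Q.V : PQ E)
      ({ x := B, y := A.reverse, hb := una H, mm := mm, fr := fr, ww := una 32, v := una (H * 32) } : MS E).st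
      ({ x := B, y := A.reverse, hb := una H, mm := mm, fr := fr, ww := una 32 } : MS E).st
      (3 * (32 * H)) := by
    refine ((Runs.clear _ _).mono ?_).of_eq ?_
    · simp only [MS.st, length_una]; omega
    · funext r
      cases r <;> first | rfl | simp [MS.st]
  have h6 : Runs (Prog.rev Q.X Q.T1 : PQ E)
      ({ x := B, y := A.reverse, hb := una H, mm := mm, fr := fr, ww := una 32 } : MS E).st
      ({ t1 := B.reverse, y := A.reverse, hb := una H, mm := mm, fr := fr, ww := una 32 } : MS E).st
      (3 * (32 * H)) := by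
    refine ((Runs.rev (by decide) _).mono ?_).of_eq ?_
    · simp only [MS.st, lb]; omega
    · funext r
      cases r <;> first | rfl | simp [MS.st]
  have h7 : Runs (Prog.rev Q.Y Q.X : PQ E)
      ({ t1 := B.reverse, y := A.reverse, hb := una H, mm := mm, fr := fr, ww := una 32 } : MS E).st
      ({ t1 := B.reverse, x := A, hb := una H, mm := mm, fr := fr, ww := una 32 } : MS E).st
      (3 * (32 * H)) := by
    refine ((Runs.rev (by decide) _).mono ?_).of_eq ?_
    · simp only [MS.st, List.length_reverse, la]; omega
    · funext r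
      cases r <;> first | rfl | simp [MS.st]
  have h8 : Runs (Prog.rev Q.T1 Q.Y : PQ E)
      ({ t1 := B.reverse, x := A, hb := una H, mm := mm, fr := fr, ww := una 32 } : MS E).st
      ({ y := B, x := A, hb := una H, mm := mm, fr := fr, ww := una 32 } : MS E).st
      (3 * (32 * H)) := by
    refine ((Runs.rev (by decide) _).mono ?_).of_eq ?_
    · simp only [MS.st, List.length_reverse, lb]; omega
    · funext r
      cases r <;> first | rfl | simp [MS.st]
  exact ((h1.seq (h2.seq h3)).seq (h4.seq (h5.seq (h6.seq (h7.seq h8))))).mono (by omega)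

theorem runs_base {base : PQ E} {C : ℕ} (hb : BaseSpec base C) {H : ℕ} {a b : ℕ → ℕ}
    (ha : ∀ j, a j < 2 ^ 32) (hb' : ∀ j, b j < 2 ^ 32) (mm fr : List (SSym E)) :
    Runs (base.seq (Prog.clear Q.WW))
      ({
        x := bits (arr H 1 32 fun β _ => a β), y := bits (arr H 1 32 fun β _ => b β),
        hb := una H, ww := una 32, mm := mm, fr := fr } : MS E).st
      ({
        x := bits (arr H 1 (2 * 32) fun β _ => a β * b β), hb := una H, mm := mm,
        fr := fr } : MS E).st
      (C * (1024 * H + 1) + 97) := by
  have h1 := hb H 32 a b ({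
        x := bits (arr H 1 32 fun β _ => a β), y := bits (arr H 1 32 fun β _ => b β),
        hb := una H, ww := una 32, mm := mm, fr := fr } : MS E).st
    (MS.clean _ rfl rfl rfl) (by norm_num) ha hb' rfl rfl rfl rfl
  have h2 := h1.seq (Runs.clear Q.WW _)
  refine (h2.mono ?_).of_eq ?_
  · simp only [Function.update_apply, MS.st]
    simp
    have : H * 32 * 32 = 1024 * H := by ring
    rw [this]
  · funext r
    cases r <;> first | rfl | simp [MS.st]

/-! ### The inverse transforms -/

theorem runs_up {up : PQ E} {C : ℕ} (hup : UpSpec up C) {u : ℕ} {a b : ℕ → ℕ}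
    (ha : ∀ β, a β < 2 ^ (32 * 2 ^ u)) (hb : ∀ β, b β < 2 ^ (32 * 2 ^ u))
    (mm : List (SSym E)) :
    Runs (Prog.loop (nonempty Q.FR) up)
      ({
        x := bits (arr (lh u (Nat.size u)) 1 (2 * 32) fun β _ =>
          lx u a (Nat.size u) β * lx u b (Nat.size u) β),
        hb := una (lh u (Nat.size u)), mm := mm, fr := lfr u (Nat.size u) } : MS E).st
      ({
        x := bits (arr 1 1 (2 * (32 * 2 ^ u)) fun β _ => a β * b β),
        hb := una 1, mm := mm } : MS E).st
      ((16 * C + 2) * (32 * 2 ^ u) * (u + 1) ^ 4) := by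
  have h := Runs.loop_iter (c := nonempty Q.FR) (p := up) (Nat.size u)
    (fun k => ({
      x := bits (arr (lh u (Nat.size u - k)) 1 (2 * (32 * 2 ^ lu u (Nat.size u - k)))
        fun β _ => lx u a (Nat.size u - k) β * lx u b (Nat.size u - k) β),
      hb := una (lh u (Nat.size u - k)), mm := mm,
      fr := lfr u (Nat.size u - k) } : MS E).st)
    (fun k => C * (lh u (Nat.size u - 1 - k) * (32 * 2 ^ lu u (Nat.size u - 1 - k)) *
      lpk (lu u (Nat.size u - 1 - k))))
    (by
      intro k hk
      obtain ⟨j, hj⟩ : ∃ j, Nat.size u - k = j + 1 := ⟨Nat.size u - k - 1, by omega⟩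
      rw [nonempty_tops]
      simp [MS.st, hj, lfr, frm])
    (by
      rw [nonempty_tops]
      simp [MS.st, lfr])
    (by
      intro k hk
      obtain ⟨j, hj⟩ : ∃ j, Nat.size u - k = j + 1 := ⟨Nat.size u - k - 1, by omega⟩
      have hj' : Nat.size u - (k + 1) = j := by omega
      have hj'' : Nat.size u - 1 - k = j := by omega
      rw [hj, hj', hj'']
      refine (hup (lu u j) (lh u j) (lx u a j) (lx u b j) (lfr u j) (MS.st _)
        (MS.clean _ rfl rfl rfl) ?_ (lu_pos (by omega)) (lh_pos u j)
        (fun β => lx_lt ha j β) (fun β => lx_lt hb j β) rfl rfl rfl rfl).of_eq ?_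
      · intro r hr
        simp only [par, List.mem_cons, List.not_mem_nil, or_false] at hr
        rcases hr with rfl | rfl | rfl | rfl | rfl | rfl <;> rfl
      · funext r
        cases r <;> first | rfl | simp [MS.st])
  simp only [Nat.sub_zero, Nat.sub_self, lu_size, pow_zero, mul_one] at h
  refine ((h.mono ?_).of_eq ?_)
  · have h1 := sum_levels u
    have h2 : ∑ k ∈ Finset.range (Nat.size u),
        (C * (lh u (Nat.size u - 1 - k) * (32 * 2 ^ lu u (Nat.size u - 1 - k)) *
      lpk (lu u (Nat.size u - 1 - k))) + 2) =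
        C * (∑ l ∈ Finset.range (Nat.size u), lh u l * (32 * 2 ^ lu u l) * lpk (lu u l)) +
          2 * Nat.size u := by
      rw [Finset.sum_add_distrib, Finset.mul_sum]
      simp only [Finset.sum_const, Finset.card_range, smul_eq_mul]
      congr 1
      · exact Finset.sum_range_reflect
          (fun l => C * (lh u l * (32 * 2 ^ lu u l) * lpk (lu u l))) (Nat.size u)
      · ring
    have h3 : Nat.size u ≤ (32 * 2 ^ u) * (u + 1) ^ 4 := by
      have h4 : Nat.size u ≤ u := Nat.size_le.2 u.lt_two_pow_self
      have h5 : u < 2 ^ u := u.lt_two_pow_self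
      have h6 : 1 ≤ (u + 1) ^ 4 := Nat.one_le_pow _ _ (by omega)
      calc Nat.size u ≤ 32 * 2 ^ u * 1 := by omega
        _ ≤ _ := Nat.mul_le_mul_left _ h6
    rw [h2]
    calc _ ≤ C * (16 * (32 * 2 ^ u) * (u + 1) ^ 4) + 2 * ((32 * 2 ^ u) * (u + 1) ^ 4) := by
          gcongr
      _ = _ := by ring
  · rfl

/-! ### The result -/

/-- Truncate the product and move it to `AZ`. -/
def finP : PQ E :=
  ((Prog.copyOnto Q.MM Q.V Q.T1).seq (Prog.copyOnto Q.MM Q.V Q.T1)).seq
    ((takeN Q.V Q.X Q.P Q.T1).seq ((Prog.clear Q.X).seq ((Prog.rev Q.P Q.AZ).seq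
      ((Prog.clear Q.V).seq ((Prog.clear Q.MM).seq (Prog.clear Q.HB))))))

theorem runs_finP {m S N : ℕ} (hS : m ≤ S) :
    Runs (finP : PQ E)
      ({ x := bits (bitsOf (2 * S) N), hb := una 1, mm := una m } : MS E).st
      ({ az := bits (bitsOf (2 * m) N) } : MS E).st
      (45 * m + 6 * S + 20) := by
  have hb : (bits (bitsOf (2 * S) N) : List (SSym E)) =
      bits (bitsOf (2 * m) N) ++ bits (bitsOf (2 * (S - m)) (N / 2 ^ (2 * m))) := by
    have : 2 * S = 2 * m + 2 * (S - m) := by omega
    conv_lhs => rw [this, bitsOf_add]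
    simp [bits]
  rw [hb]
  have l1 : (bits (bitsOf (2 * m) N) : List (SSym E)).length = 2 * m := by simp
  have l2 : (bits (bitsOf (2 * (S - m)) (N / 2 ^ (2 * m))) : List (SSym E)).length ≤
      2 * S := by simp
  generalize (bits (bitsOf (2 * m) N) : List (SSym E)) = A at *
  generalize (bits (bitsOf (2 * (S - m)) (N / 2 ^ (2 * m))) : List (SSym E)) = B at *
  have h1 : Runs (Prog.copyOnto Q.MM Q.V Q.T1 : PQ E)
      ({ x := A ++ B, hb := una 1, mm := una m } : MS E).st
      ({ x := A ++ B, hb := una 1, mm := una m, v := una m } : MS E).st (6 * m + 1) := by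
    refine ((Runs.copyOnto (by decide) (by decide) (by decide) _ rfl).mono ?_).of_eq ?_
    · simp [MS.st]
    · funext r
      cases r <;> first | rfl | simp [MS.st]
  have h2 : Runs (Prog.copyOnto Q.MM Q.V Q.T1 : PQ E)
      ({ x := A ++ B, hb := una 1, mm := una m, v := una m } : MS E).st
      ({ x := A ++ B, hb := una 1, mm := una m, v := una (2 * m) } : MS E).st
      (6 * m + 1) := by
    refine ((Runs.copyOnto (by decide) (by decide) (by decide) _ rfl).mono ?_).of_eq ?_
    · simp [MS.st]
    · funext r; cases r <;> first | rfl | simp [MS.st, two_mul]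
  have h3 : Runs (takeN Q.V Q.X Q.P Q.T1 : PQ E)
      ({ x := A ++ B, hb := una 1, mm := una m, v := una (2 * m) } : MS E).st
      ({ x := B, p := A.reverse, hb := una 1, mm := una m, v := una (2 * m) } : MS E).st
      (8 * (2 * m) + 1) := by
    refine ((runs_takeN (u := Q.V) (a := Q.X) (b := Q.P) (t := Q.T1)
      (by decide) (by decide) (by decide) (by decide) (by decide) (by decide) mk A B
      (MS.st _) ?_ rfl rfl).mono ?_).of_eq ?_
    · simp only [MS.st, l1, una]
    · rw [l1]
    · funext r
      cases r <;> first | rfl | simp [MS.st]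
  have h4 : Runs (Prog.clear Q.X : PQ E)
      ({ x := B, p := A.reverse, hb := una 1, mm := una m, v := una (2 * m) } : MS E).st
      ({ p := A.reverse, hb := una 1, mm := una m, v := una (2 * m) } : MS E).st
      (3 * (2 * S)) := by
    refine ((Runs.clear _ _).mono ?_).of_eq ?_
    · simp only [MS.st]; omega
    · funext r
      cases r <;> first | rfl | simp [MS.st]
  have h5 : Runs (Prog.rev Q.P Q.AZ : PQ E)
      ({ p := A.reverse, hb := una 1, mm := una m, v := una (2 * m) } : MS E).st
      ({ az := A, hb := una 1, mm := una m, v := una (2 * m) } : MS E).st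
      (3 * (2 * m)) := by
    refine ((Runs.rev (by decide) _).mono ?_).of_eq ?_
    · simp only [MS.st, List.length_reverse, l1]; omega
    · funext r
      cases r <;> first | rfl | simp [MS.st]
  have h6 : Runs (Prog.clear Q.V : PQ E)
      ({ az := A, hb := una 1, mm := una m, v := una (2 * m) } : MS E).st
      ({ az := A, hb := una 1, mm := una m } : MS E).st (3 * (2 * m)) := by
    refine ((Runs.clear _ _).mono ?_).of_eq ?_
    · simp only [MS.st, length_una]; omega
    · funext r
      cases r <;> first | rfl | simp [MS.st]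
  have h7 : Runs (Prog.clear Q.MM : PQ E)
      ({ az := A, hb := una 1, mm := una m } : MS E).st
      ({ az := A, hb := una 1 } : MS E).st (3 * m) := by
    refine ((Runs.clear _ _).mono ?_).of_eq ?_
    · simp only [MS.st, length_una]; omega
    · funext r
      cases r <;> first | rfl | simp [MS.st]
  have h8 : Runs (Prog.clear Q.HB : PQ E)
      ({ az := A, hb := una 1 } : MS E).st
      ({ az := A } : MS E).st 3 := by
    refine ((Runs.clear _ _).mono ?_).of_eq ?_
    · simp only [MS.st, length_una]; omega
    · funext r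
      cases r <;> first | rfl | simp [MS.st]
  exact ((h1.seq h2).seq (h3.seq (h4.seq (h5.seq (h6.seq (h7.seq h8)))))).mono (by omega)

/-- The multiplication program. -/
def mainP (down up base : PQ E) : PQ E :=
  (setupA.seq setupB).seq ((Prog.loop (nonempty Q.UU) down).seq (splitXY.seq
    ((base.seq (Prog.clear Q.WW)).seq ((Prog.loop (nonempty Q.FR) up).seq finP))))

theorem mainSpec {down up base : PQ E} {C₁ C₂ C₃ : ℕ} (hd : DownSpec down C₁)
    (hup : UpSpec up C₂) (hb : BaseSpec base C₃) :
    MainSpec (mainP down up base) (100000 * (C₁ + C₂ + C₃ + 1)) := by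
  intro m xs ys s hm hx hy hsx hsy hs
  have es : s = ({ ax := bits xs, ay := bits ys } : MS E).st := by
    funext r
    cases r <;> first | exact hsx | exact hsy | exact hs _ (by decide) (by decide)
  subst es
  -- the level parameter
  obtain ⟨u, hu, hu'⟩ : ∃ u, (∀ k < u, 32 * 2 ^ k < m) ∧ m ≤ 32 * 2 ^ u := by
    have hex : ∃ u, m ≤ 32 * 2 ^ u := ⟨m, by have := m.lt_two_pow_self; omega⟩
    exact ⟨Nat.find hex, fun k hk => not_le.1 (Nat.find_min hex hk), Nat.find_spec hex⟩
  have hlog : u + 1 ≤ Nat.log 2 m + 1 := by
    rcases Nat.eq_zero_or_pos u with rfl | hpos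
    · omega
    · have h1 := hu (u - 1) (by omega)
      have h2 : 2 ^ u = 2 ^ (u - 1) * 2 := by rw [← pow_succ]; congr 1; omega
      have h3 : u ≤ Nat.log 2 m := (Nat.le_log_iff_pow_le (by norm_num) (by omega)).2 (by omega)
      omega
  have hS : 32 * 2 ^ u ≤ 32 * m := by
    rcases Nat.eq_zero_or_pos u with rfl | hpos
    · omega
    · have h1 := hu (u - 1) (by omega)
      have h2 : 2 ^ u = 2 ^ (u - 1) * 2 := by rw [← pow_succ]; congr 1; omega
      omega
  set S := 32 * 2 ^ u with hSdef
  have hxs : natOf xs < 2 ^ S :=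
    (natOf_lt xs).trans_le (Nat.pow_le_pow_right (by norm_num) (by omega))
  have hys : natOf ys < 2 ^ S :=
    (natOf_lt ys).trans_le (Nat.pow_le_pow_right (by norm_num) (by omega))
  have h1 := runs_setupA (E := E) xs ys hx hu hu'
  have h2 := runs_setupB (E := E) (u := u) (S := S) hx hy hu'
  have hz : ∀ β, comb 1 (fun _ => natOf xs) (fun _ => natOf ys) β < 2 ^ (32 * 2 ^ u) := by
    intro β
    unfold comb
    split_ifs
    · exact hxs
    · exact hys
  have h3 := runs_down hd hz (una m)
  rw [lx_comb] at h3
  have h4 := runs_splitXY (E := E) (H := lh u (Nat.size u))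
    (lx u (fun _ => natOf xs) (Nat.size u)) (lx u (fun _ => natOf ys) (Nat.size u)) (una m)
    (lfr u (Nat.size u))
  have ha : ∀ j, lx u (fun _ => natOf xs) (Nat.size u) j < 2 ^ 32 := fun j => by
    simpa [lu_size] using lx_lt (u := u) (x := fun _ => natOf xs) (fun _ => hxs) (Nat.size u) j
  have hb' : ∀ j, lx u (fun _ => natOf ys) (Nat.size u) j < 2 ^ 32 := fun j => by
    simpa [lu_size] using lx_lt (u := u) (x := fun _ => natOf ys) (fun _ => hys) (Nat.size u) j
  have h5 := runs_base hb (H := lh u (Nat.size u)) ha hb' (una m) (lfr u (Nat.size u))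
  have h6 := runs_up hup (u := u) (a := fun _ => natOf xs) (b := fun _ => natOf ys)
    (fun _ => hxs) (fun _ => hys) (una m)
  have h7 := runs_finP (E := E) (m := m) (S := S) (N := natOf xs * natOf ys) hu'
  have e7 : arr 1 1 (2 * (32 * 2 ^ u)) (fun β _ =>
      (fun _ : ℕ => natOf xs) β * (fun _ : ℕ => natOf ys) β) =
      bitsOf (2 * S) (natOf xs * natOf ys) := by
    simp [arr, cat_one, hSdef]
  rw [e7] at h6
  have h := (h1.seq h2).seq (h3.seq (h4.seq (h5.seq (h6.seq h7))))
  refine (h.mono ?_).of_eq ?_
  · -- the time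
    have hH : 32 * lh u (Nat.size u) ≤ 16 * (S * (u + 1) ^ 4) := by
      have e1 := lh_mul u (Nat.size u)
      rw [lu_size, pow_zero, mul_one, ← hSdef] at e1
      have e2 : 16 ^ Nat.size u ≤ 16 * (u + 1) ^ 4 := by
        have h2 : 2 ^ Nat.size u ≤ 2 * (u + 1) := by
          rcases Nat.eq_zero_or_pos u with rfl | hu
          · simp
          · obtain ⟨k, hk⟩ : ∃ k, Nat.size u = k + 1 :=
              ⟨Nat.size u - 1, by have := Nat.size_pos.2 hu; omega⟩
            have : 2 ^ k ≤ u := Nat.lt_size.1 (by omega)
            rw [hk, pow_succ]; omega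
        calc 16 ^ Nat.size u = (2 ^ Nat.size u) ^ 4 := by
              rw [← pow_mul, mul_comm, pow_mul]; norm_num
          _ ≤ (2 * (u + 1)) ^ 4 := Nat.pow_le_pow_left h2 4
          _ = 16 * (u + 1) ^ 4 := by ring
      calc 32 * lh u (Nat.size u) = 16 ^ Nat.size u * S := by rw [← e1]; ring
        _ ≤ 16 * (u + 1) ^ 4 * S := Nat.mul_le_mul_right _ e2
        _ = _ := by ring
    have hT : S * (u + 1) ^ 4 ≤ 32 * tSS m := by
      unfold tSS
      calc S * (u + 1) ^ 4 ≤ (32 * m) * (Nat.log 2 m + 1) ^ 4 :=
            Nat.mul_le_mul hS (Nat.pow_le_pow_left hlog 4)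
        _ = _ := by ring
    have hm' : m ≤ tSS m := by
      unfold tSS
      exact Nat.le_mul_of_pos_right _ (by positivity)
    have hd1 : (32 * C₁ + 2) * (32 * 2 ^ u) * (u + 1) ^ 4 ≤
        (32 * C₁ + 2) * (32 * tSS m) := by
      rw [← hSdef, mul_assoc]; exact Nat.mul_le_mul_left _ hT
    have hu1 : (16 * C₂ + 2) * (32 * 2 ^ u) * (u + 1) ^ 4 ≤
        (16 * C₂ + 2) * (32 * tSS m) := by
      rw [← hSdef, mul_assoc]; exact Nat.mul_le_mul_left _ hT
    have hb1 : C₃ * (1024 * lh u (Nat.size u) + 1) ≤ C₃ * (20000 * tSS m) :=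
      Nat.mul_le_mul_left _ (by omega)
    have : 100000 * (C₁ + C₂ + C₃ + 1) * tSS m = 100000 * (C₁ * tSS m) +
      100000 * (C₂ * tSS m) + 100000 * (C₃ * tSS m) + 100000 * tSS m := by ring
    rw [this]
    have e1 : (32 * C₁ + 2) * (32 * tSS m) = 1024 * (C₁ * tSS m) + 64 * tSS m := by ring
    have e2 : (16 * C₂ + 2) * (32 * tSS m) = 512 * (C₂ * tSS m) + 64 * tSS m := by ring
    have e3 : C₃ * (20000 * tSS m) = 20000 * (C₃ * tSS m) := by ring
    omega
  · funext r
    cases r <;> first | rfl | simp [MS.st]

end Vale.Agent.P338.SS
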