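import Vale.Agent.P338.SSIface

/-!
# P338, third part: the sequence of the levels (pure part)
-/

namespace Vale.Agent.P338.SS

/-! ### The transforms of several numbers -/

theorem two_pow_lpk (u : ℕ) : 2 ^ lpk u = lpK u := by
  rw [lpk, lpK, pow_add]; ring

theorem pm_addW_lt (W x y : ℕ) : addW W x y < 2 ^ W := Nat.mod_lt _ (by positivity)

theorem pm_subW_lt (W x y : ℕ) : subW W x y < 2 ^ W := pm_addW_lt _ _ _

theorem pm_fwdF_lt (W q st : ℕ) (F : ℕ → ℕ → ℕ) (β i : ℕ) : fwdF W q st F β i < 2 ^ W := by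
  unfold fwdF
  split_ifs
  · exact pm_addW_lt _ _ _
  · exact rotN_lt (Nat.sub_le _ _) (pm_subW_lt _ _ _)

theorem pm_leaf_lt (u : ℕ) (x : ℕ → ℕ) (j : ℕ) : leaf u x j < 2 ^ (32 * 2 ^ (u / 2)) := by
  have : ∃ k, lpk u = k + 1 := ⟨u - u / 2 + 3, by rw [lpk]⟩
  obtain ⟨k, hk⟩ := this
  rw [leaf, hk]
  exact pm_fwdF_lt _ _ _ _ _ _

theorem fwdIter_congr {W D K : ℕ} {F G : ℕ → ℕ → ℕ} (i : ℕ) (β : ℕ)
    (h : F (β / 2 ^ i) = G (β / 2 ^ i)) : fwdIter W D K i F β = fwdIter W D K i G β := by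
  induction i generalizing β with
  | zero => simpa [fwdIter] using h
  | succ i ih =>
    have e : fwdIter W D K i F (β / 2) = fwdIter W D K i G (β / 2) := by
      apply ih
      rw [Nat.div_div_eq_div_mul, ← pow_succ']
      exact h
    funext j
    simp only [fwdIter, fwdF]
    rw [e]

theorem fwdIter_shift {W D K : ℕ} {F : ℕ → ℕ → ℕ} (i c β : ℕ) :
    fwdIter W D K i (fun β => F (β + c)) β = fwdIter W D K i F (β + c * 2 ^ i) := by
  induction i generalizing β with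
  | zero => simp [fwdIter]
  | succ i ih =>
    have e1 : (β + c * 2 ^ (i + 1)) / 2 = β / 2 + c * 2 ^ i := by
      rw [pow_succ, ← mul_assoc, Nat.add_mul_div_right _ _ (by norm_num)]
    have e2 : (β + c * 2 ^ (i + 1)) % 2 = β % 2 := by
      rw [pow_succ, ← mul_assoc, Nat.add_mul_mod_self_right]
    funext j
    simp only [fwdIter, fwdF]
    rw [e1, e2, ih]

theorem leaf_congr {u : ℕ} {x y : ℕ → ℕ} (j : ℕ) (h : x (j / lpK u) = y (j / lpK u)) :
    leaf u x j = leaf u y j := by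
  unfold leaf
  rw [fwdIter_congr (F := pcs u x) (G := pcs u y)]
  rw [two_pow_lpk]
  funext i
  simp only [pcs]
  rw [h]

theorem leaf_shift {u : ℕ} {x : ℕ → ℕ} (c j : ℕ) :
    leaf u (fun β => x (β + c)) j = leaf u x (j + c * lpK u) := by
  unfold leaf
  have h := fwdIter_shift (W := lpW u) (D := lpD u) (K := lpK u) (F := pcs u x) (lpk u) c j
  rw [two_pow_lpk] at h
  rw [← h]
  rfl

/-- Two sequences, one after the other. -/
def comb (h : ℕ) (a b : ℕ → ℕ) (β : ℕ) : ℕ := if β < h then a β else b (β - h)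

theorem leaf_comb (u h : ℕ) (a b : ℕ → ℕ) (j : ℕ) :
    leaf u (comb h a b) j = comb (h * lpK u) (leaf u a) (leaf u b) j := by
  have hK : 0 < lpK u := by rw [lpK]; positivity
  unfold comb
  split_ifs with hj
  · apply leaf_congr
    have : j / lpK u < h := (Nat.div_lt_iff_lt_mul hK).2 hj
    simp [this]
  · obtain ⟨i, rfl⟩ := Nat.exists_eq_add_of_le' (not_lt.1 hj)
    rw [← leaf_shift, Nat.add_sub_cancel]
    congr 1
    funext β
    simp

/-! ### The levels -/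

/-- The level parameter after `l` levels. -/
def lu (u : ℕ) : ℕ → ℕ
  | 0 => u
  | l + 1 => lu u l / 2

/-- The number of blocks after `l` levels. -/
def lh (u : ℕ) : ℕ → ℕ
  | 0 => 1
  | l + 1 => lh u l * lpK (lu u l)

/-- The numbers after `l` levels. -/
def lx (u : ℕ) (x : ℕ → ℕ) : ℕ → ℕ → ℕ
  | 0 => x
  | l + 1 => leaf (lu u l) (lx u x l)

/-- The frames after `l` levels. -/
def lfr {E : Type} (u : ℕ) : ℕ → List (SSym E)
  | 0 => []
  | l + 1 => frm (lu u l) ++ lfr u l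

theorem lu_eq (u l : ℕ) : lu u l = u / 2 ^ l := by
  induction l with
  | zero => simp [lu]
  | succ l ih => rw [lu, ih, Nat.div_div_eq_div_mul, ← pow_succ]

theorem lu_pos {u l : ℕ} (h : l < Nat.size u) : 1 ≤ lu u l := by
  rw [lu_eq, Nat.one_le_div_iff (by positivity)]
  exact Nat.lt_size.1 h

theorem lu_size (u : ℕ) : lu u (Nat.size u) = 0 := by
  rw [lu_eq]
  exact Nat.div_eq_of_lt (Nat.lt_size_self u)

theorem lx_lt {u : ℕ} {x : ℕ → ℕ} (hx : ∀ β, x β < 2 ^ (32 * 2 ^ u)) (l β : ℕ) :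
    lx u x l β < 2 ^ (32 * 2 ^ lu u l) := by
  cases l with
  | zero => exact hx β
  | succ l => exact pm_leaf_lt _ _ _

theorem lh_pos (u l : ℕ) : 1 ≤ lh u l := by
  induction l with
  | zero => exact le_rfl
  | succ l ih =>
    rw [lh]
    have : 0 < lpK (lu u l) := by rw [lpK]; positivity
    exact Nat.one_le_iff_ne_zero.2 (by positivity)

theorem lx_comb (u : ℕ) (a b : ℕ → ℕ) (l : ℕ) :
    lx u (comb 1 a b) l = comb (lh u l) (lx u a l) (lx u b l) := by
  induction l with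
  | zero => rfl
  | succ l ih =>
    funext j
    rw [lx, ih, leaf_comb]
    rfl

theorem lh_mul (u l : ℕ) : lh u l * (32 * 2 ^ lu u l) = 16 ^ l * (32 * 2 ^ u) := by
  induction l with
  | zero => simp [lh, lu]
  | succ l ih =>
    have e : lpK (lu u l) * (32 * 2 ^ (lu u l / 2)) = 16 * (32 * 2 ^ lu u l) := by
      rw [lpK]
      have : 2 ^ (lu u l - lu u l / 2) * 2 ^ (lu u l / 2) = 2 ^ lu u l := by
        rw [← pow_add]; congr 1; omega
      calc 16 * 2 ^ (lu u l - lu u l / 2) * (32 * 2 ^ (lu u l / 2))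
          = 16 * (32 * (2 ^ (lu u l - lu u l / 2) * 2 ^ (lu u l / 2))) := by ring
        _ = _ := by rw [this]
    rw [lh, lu, mul_assoc, e, pow_succ]
    calc lh u l * (16 * (32 * 2 ^ lu u l)) = 16 * (lh u l * (32 * 2 ^ lu u l)) := by ring
      _ = 16 * (16 ^ l * (32 * 2 ^ u)) := by rw [ih]
      _ = _ := by ring

/-- The sum over the levels. -/
theorem sum_levels (u : ℕ) :
    ∑ l ∈ Finset.range (Nat.size u), lh u l * (32 * 2 ^ lu u l) * lpk (lu u l) ≤
      16 * (32 * 2 ^ u) * (u + 1) ^ 4 := by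
  have h1 : ∀ l ∈ Finset.range (Nat.size u), lh u l * (32 * 2 ^ lu u l) * lpk (lu u l) ≤
      (32 * 2 ^ u) * (u * 8 ^ l + 4 * 16 ^ l) := by
    intro l hl
    rw [lh_mul]
    have e1 : lpk (lu u l) ≤ lu u l + 4 := by rw [lpk]; omega
    have e2 : 2 ^ l * lu u l ≤ u := by
      rw [lu_eq]; exact Nat.mul_div_le u _
    calc 16 ^ l * (32 * 2 ^ u) * lpk (lu u l) ≤ 16 ^ l * (32 * 2 ^ u) * (lu u l + 4) :=
          Nat.mul_le_mul_left _ e1
      _ = (32 * 2 ^ u) * (8 ^ l * (2 ^ l * lu u l) + 4 * 16 ^ l) := by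
          have : (16 : ℕ) ^ l = 8 ^ l * 2 ^ l := by rw [← mul_pow]; norm_num
          rw [this]; ring
      _ ≤ (32 * 2 ^ u) * (8 ^ l * u + 4 * 16 ^ l) := by gcongr
      _ = _ := by ring
  have h8 : ∀ n : ℕ, 7 * ∑ l ∈ Finset.range n, 8 ^ l ≤ 8 ^ n := by
    intro n
    induction n with
    | zero => simp
    | succ n ih => rw [Finset.sum_range_succ, pow_succ]; omega
  have h16 : ∀ n : ℕ, 15 * ∑ l ∈ Finset.range n, 16 ^ l ≤ 16 ^ n := by
    intro n
    induction n with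
    | zero => simp
    | succ n ih => rw [Finset.sum_range_succ, pow_succ]; omega
  have h2 : 2 ^ Nat.size u ≤ 2 * (u + 1) := by
    rcases Nat.eq_zero_or_pos u with rfl | hu
    · simp
    · obtain ⟨k, hk⟩ : ∃ k, Nat.size u = k + 1 :=
        ⟨Nat.size u - 1, by have := Nat.size_pos.2 hu; omega⟩
      have : 2 ^ k ≤ u := Nat.lt_size.1 (by omega)
      rw [hk, pow_succ]; omega
  have e8 : 8 ^ Nat.size u ≤ 8 * (u + 1) ^ 3 := by
    calc 8 ^ Nat.size u = (2 ^ Nat.size u) ^ 3 := by rw [← pow_mul, mul_comm, pow_mul]; norm_num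
      _ ≤ (2 * (u + 1)) ^ 3 := Nat.pow_le_pow_left h2 3
      _ = 8 * (u + 1) ^ 3 := by ring
  have e16 : 16 ^ Nat.size u ≤ 16 * (u + 1) ^ 4 := by
    calc 16 ^ Nat.size u = (2 ^ Nat.size u) ^ 4 := by
          rw [← pow_mul, mul_comm, pow_mul]; norm_num
      _ ≤ (2 * (u + 1)) ^ 4 := Nat.pow_le_pow_left h2 4
      _ = 16 * (u + 1) ^ 4 := by ring
  refine (Finset.sum_le_sum h1).trans ?_
  rw [← Finset.mul_sum, Finset.sum_add_distrib, ← Finset.mul_sum, ← Finset.mul_sum,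
    mul_comm 16 (32 * 2 ^ u), mul_assoc (32 * 2 ^ u) 16]
  refine Nat.mul_le_mul_left _ ?_
  have a1 := h8 (Nat.size u)
  have a2 := h16 (Nat.size u)
  have a3 : u * ∑ l ∈ Finset.range (Nat.size u), 8 ^ l ≤ 8 * (u + 1) ^ 4 := by
    calc u * ∑ l ∈ Finset.range (Nat.size u), 8 ^ l ≤ (u + 1) * 8 ^ Nat.size u :=
          Nat.mul_le_mul (by omega) (by omega)
      _ ≤ (u + 1) * (8 * (u + 1) ^ 3) := Nat.mul_le_mul_left _ e8
      _ = _ := by ring
  omega

end Vale.Agent.P338.SS
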